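import Vale.Agent.P287D.Ti.Plt

/-!
# P287D: tie breaking
-/

set_option linter.all false

open Set Filter Topology

noncomputable section

namespace Vale.Agent.P287D.Ti

open Pr

variable {n : ℕ} {K : Type} [Field K] [Algebra ℂ K] {A κ Γ G Λ : BD K} {T : Finset (Pl K)}
  {h : Pl K → BD K} {P Q R : Pl K} {S : Set (Pl K)} {δ : ℝ}

theorem sup_h (l : LS n A κ T h) (hP : P ∈ T) : Sup n A T (h P) :=
  ⟨(l.hull P (l.on P hP)).1, fun Q a b => ((l.hull P (l.on P hP)).2 Q a).trans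
    (Pl.δ_ne fun e => b (e ▸ hP))⟩

/-- log smooth pairs with one coefficient equal to one -/
theorem plt_gt (l : LS n A κ T h) (s : Sup n A T (κ - Γ)) (hP : P ∈ T)
    (p : h P Q ≤ dsc (n + 1) κ Q) (k0 : 0 < h P Q → -1 ≤ dsc (n + 1) Γ P)
    (k : ∀ R ∈ T, R ≠ P → 0 < h R Q → -1 < dsc (n + 1) Γ R) : -1 < dsc (n + 1) Γ Q := by
  have nn : ∀ R ∈ T, 0 ≤ (dsc (n + 1) Γ R + 1) * h R Q := fun R hR =>
    (l.nn (l.on R hR) Q).eq_or_lt.elim (fun z => by rw [← z]; simp) fun z => by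
      refine mul_nonneg ?_ z.le
      by_cases e : R = P
      · subst e; linarith [k0 z]
      · linarith [k R hR e z]
  have e := l.ld s Q
  by_cases z : ∃ R ∈ T, R ≠ P ∧ 0 < h R Q
  · obtain ⟨R, hR, a, z⟩ := z
    have b := Finset.single_le_sum nn hR
    have c := mul_pos (show 0 < dsc (n + 1) Γ R + 1 by linarith [k R hR a z]) z
    linarith [l.snc Q]
  · rw [Finset.sum_eq_single_of_mem P hP fun R hR a =>
      le_antisymm (not_lt.1 fun c => z ⟨R, hR, a, c⟩) (l.nn (l.on R hR) Q)] at e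
    linarith [Finset.sum_nonneg nn]

/-- **TIE**: tie breaking on a set of places which is closed under generalisation -/
theorem tie0 (hK : FF K (n + 1)) (hΛ : Nef Λ) (hb : Big Λ) (hΓ : Γ ∈ Car K) (hG : G ∈ Car K)
    (g0 : 0 ≤ G) (up : ∀ Q ∈ S, ∀ P, CLe Λ Q P → P ∈ S) (k : ∀ Q ∈ S, -1 < dsc (n + 1) Γ Q)
    (hR : R ∈ S) (g : dsc (n + 1) (Γ + G) R ≤ -1) (d0 : 0 < δ) :
    ∃ (μ : ℝ) (D A : BD K) (P : Pl K), 0 < G P ∧ 0 < μ ∧ μ < 1 ∧ 0 ≤ D ∧ Big A ∧ On n A P ∧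
      AmpOn A (δ • Λ - D) ∧ Dsc A Λ ∧ Dsc A Γ ∧ Dsc A G ∧ P ∈ S ∧
      dsc (n + 1) (Γ + μ • G + D) P = -1 ∧
      ∀ Q ∈ S, Q ≠ P → -1 < dsc (n + 1) (Γ + μ • G + D) Q := by
  classical
  obtain ⟨s, κ, T, h, E, l, p, -, sκ, sB, sΛ, sE, e0, am⟩ := exists_lsx hK finite_empty
    (toFinite {Γ, G}) (forall_mem_insert.2 ⟨hΓ, forall_eq.2 hG⟩) hΛ hb
  have sΓ := sB Γ (by simp)
  have sG := sB G (by simp)
  have u : ∀ Q ∈ S, ∀ P ∈ T, 0 < h P Q → P ∈ S := fun Q hQ P hP z =>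
    up Q hQ P (l.cle (l.on P hP) z sΛ.1)
  obtain ⟨t, ⟨t1, t2⟩, t0⟩ := (((ge_mem_nhds one_pos : ∀ᶠ t in 𝓝 (0 : ℝ), t ≤ 1).and
    ((eventually_all_finset (T.filter (· ∈ S))).2 fun P hP => (show Tendsto
      (fun t : ℝ => t * (δ * E P)) (𝓝 0) (𝓝 0) by
        simpa using (continuous_mul_const (δ * E P)).tendsto 0).eventually (gt_mem_nhds
          (show 0 < dsc (n + 1) Γ P + 1 by
            linarith [k P (Finset.mem_filter.1 hP).2])))).filter_mono nhdsWithin_le_nhds).and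
    (self_mem_nhdsWithin (s := Ioi (0 : ℝ))) |>.exists
  have t0 : 0 < t := t0
  have a0 : ∀ P ∈ T, P ∈ S → 0 < dsc (n + 1) Γ P + 1 - t * (δ * E P) := fun P a b =>
    sub_pos.2 (t2 P (Finset.mem_filter.2 ⟨a, b⟩))
  obtain ⟨P₁, a1, b1, c1⟩ : ∃ P ∈ T, P ∈ S ∧ dsc (n + 1) Γ P + 1 ≤ G P := by
    by_contra z
    push Not at z
    have := l.gt (Q := R) (Γ := Γ + G) (sκ.sub (sΓ.add sG)) le_rfl one_pos fun P hP c => by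
      rw [dsc_add]; linarith [z P hP (u R hR P hP c)]
    linarith
  have g1 : 0 < G P₁ := by linarith [k P₁ b1]
  obtain ⟨P, hP, mn⟩ := (T.filter fun P => P ∈ S ∧ 0 < G P).exists_min_image
    (fun P => (dsc (n + 1) Γ P + 1 - t * (δ * E P)) / G P) ⟨P₁, Finset.mem_filter.2 ⟨a1, b1, g1⟩⟩
  obtain ⟨p1, p2, p3⟩ := Finset.mem_filter.1 hP
  obtain ⟨ε, ε0, op⟩ := ((am t t0 t1).smul d0).opn (sup_h l p1).1
  have a2 := a0 P p1 p2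
  obtain ⟨η, η0, η1, η2⟩ : ∃ η : ℝ, 0 < η ∧ η ≤ ε ∧ η < dsc (n + 1) Γ P + 1 - t * (δ * E P) :=
    ⟨min ε (_ / 2), lt_min ε0 (half_pos a2), min_le_left _ _,
      (min_le_right _ _).trans_lt (half_lt_self a2)⟩
  obtain ⟨μ, μ0, μ1, μ2⟩ : ∃ μ : ℝ, 0 < μ ∧ μ < (dsc (n + 1) Γ P + 1 - t * (δ * E P)) / G P ∧
      μ * G P = dsc (n + 1) Γ P + 1 - t * (δ * E P) - η :=
    ⟨_ / G P, div_pos (sub_pos.2 η2) p3, div_lt_div_of_pos_right (sub_lt_self _ η0) p3,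
      div_mul_cancel₀ _ p3.ne'⟩
  have v : ∀ Q, dsc (n + 1) (Γ + μ • G + ((t * δ) • E + η • h P)) Q =
      dsc (n + 1) Γ Q - μ * G Q - (t * (δ * E Q) + η * h P Q) := fun Q => by
    rw [dsc_add, dsc_add_smul, Pi.add_apply, Pi.smul_apply, Pi.smul_apply, smul_eq_mul,
      smul_eq_mul, mul_assoc]
  have vP : dsc (n + 1) (Γ + μ • G + ((t * δ) • E + η • h P)) P = -1 := by
    rw [v, (l.hull P (l.on P p1)).2 P (l.on P p1), Pl.δ_self]; linarith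
  refine ⟨μ, (t * δ) • E + η • h P, mx s, P, p3, μ0, ?_, add_nonneg (smul_nonneg (mul_pos t0 d0).le e0)
    (smul_nonneg η0.le (l.nn (l.on P p1))), l.big, l.on P p1, ?_, sΛ.1, sΓ.1, sG.1, p2, vP,
    fun Q hQ ne => plt_gt l (sκ.sub ((sΓ.add (sG.smul μ)).add ((sE.smul _).add
      ((sup_h l p1).smul η)))) p1 (p P p1 Q ne) (fun _ => vP.ge) fun R hR a z => ?_⟩
  · refine μ1.trans_le ((mn P₁ (Finset.mem_filter.2 ⟨a1, b1, g1⟩)).trans ((div_le_one g1).2 ?_))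
    linarith [mul_nonneg t0.le (mul_nonneg d0.le (e0 P₁))]
  · have := op (-η) (by rwa [abs_neg, abs_of_pos η0])
    rwa [show δ • (Λ - t • E) + -η • h P = δ • Λ - ((t * δ) • E + η • h P) by module] at this
  · have b := u Q hQ R hR z
    have c := a0 R hR b
    rw [v, (l.hull P (l.on P p1)).2 R (l.on R hR), Pl.δ_ne a]
    rcases (g0 R).eq_or_lt with e | e
    · have e : G R = 0 := e.symm
      rw [e]; linarith
    · have := (lt_div_iff₀ e).1 (μ1.trans_le (mn R (Finset.mem_filter.2 ⟨hR, b, e⟩)))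
      linarith

theorem tie (hK : FF K (n + 1)) (hΛ : Nef Λ) (hb : Big Λ) (hΓ : Γ ∈ Car K) (hG : G ∈ Car K)
    (g0 : 0 ≤ G) (up : ∀ Q ∈ S, ∀ P, CLe Λ Q P → P ∈ S) (k : ∀ Q ∈ S, -1 < dsc (n + 1) Γ Q)
    (hR : R ∈ S) (g : dsc (n + 1) (Γ + G) R ≤ -1) (d0 : 0 < δ) :
    ∃ (μ : ℝ) (D A : BD K) (P : Pl K), 0 < μ ∧ μ < 1 ∧ 0 ≤ D ∧ Big A ∧ On n A P ∧
      AmpOn A (δ • Λ - D) ∧ Dsc A Λ ∧ Dsc A Γ ∧ Dsc A G ∧ P ∈ S ∧
      dsc (n + 1) (Γ + μ • G + D) P = -1 ∧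
      ∀ Q ∈ S, Q ≠ P → -1 < dsc (n + 1) (Γ + μ • G + D) Q :=
  let ⟨μ, D, A, P, _, h⟩ := tie0 hK hΛ hb hΓ hG g0 up k hR g d0
  ⟨μ, D, A, P, h⟩

theorem tie_big0 (hK : FF K (n + 1)) (hΛ : Nef Λ) (hb : Big Λ) (hΓ : Γ ∈ Car K) (hG : G ∈ Car K)
    (g0 : 0 ≤ G) (up : ∀ Q ∈ S, ∀ P, CLe Λ Q P → P ∈ S) (k : ∀ Q ∈ S, -1 < dsc (n + 1) Γ Q)
    (hR : R ∈ S) (g : dsc (n + 1) (Γ + G) R ≤ -1) (d0 : 0 < δ) :
    ∃ (μ : ℝ) (D : BD K) (P : Pl K), 0 < G P ∧ 0 < μ ∧ μ < 1 ∧ 0 ≤ D ∧ D ∈ Car K ∧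
      Smp (δ • Λ - D) ∧ Big (δ • Λ - D) ∧ Big (res P (δ • Λ - D)) ∧ P ∈ S ∧
      dsc (n + 1) (Γ + μ • G + D) P = -1 ∧
      ∀ Q ∈ S, Q ≠ P → -1 < dsc (n + 1) (Γ + μ • G + D) Q := by
  obtain ⟨μ, D, A, P, z, a, b, c, d, e, f, -, -, -, i⟩ := tie0 hK hΛ hb hΓ hG g0 up k hR g d0
  exact ⟨μ, D, P, z, a, b, c, by
    simpa using sub_mem (Submodule.smul_mem _ δ hΛ.car) f.car, f.smp, f.big_iff.1 d,
    (res_ampOn hK P f).big_iff.1 ((res'.on n K hK A P f.smp_left).1 e), i⟩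

/-- tie breaking, for generalised pairs -/
theorem tie_big (hK : FF K (n + 1)) (hΛ : Nef Λ) (hb : Big Λ) (hΓ : Γ ∈ Car K) (hG : G ∈ Car K)
    (g0 : 0 ≤ G) (up : ∀ Q ∈ S, ∀ P, CLe Λ Q P → P ∈ S) (k : ∀ Q ∈ S, -1 < dsc (n + 1) Γ Q)
    (hR : R ∈ S) (g : dsc (n + 1) (Γ + G) R ≤ -1) (d0 : 0 < δ) :
    ∃ (μ : ℝ) (D : BD K) (P : Pl K), 0 < μ ∧ μ < 1 ∧ 0 ≤ D ∧ D ∈ Car K ∧ Smp (δ • Λ - D) ∧
      Big (δ • Λ - D) ∧ Big (res P (δ • Λ - D)) ∧ P ∈ S ∧ dsc (n + 1) (Γ + μ • G + D) P = -1 ∧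
      ∀ Q ∈ S, Q ≠ P → -1 < dsc (n + 1) (Γ + μ • G + D) Q :=
  let ⟨μ, D, P, _, h⟩ := tie_big0 hK hΛ hb hΓ hG g0 up k hR g d0
  ⟨μ, D, P, h⟩

/-- tie breaking, for pairs -/
theorem tie_rep (hK : FF K (n + 1)) (hΛ : Nef Λ) (hb : Big Λ) (hΓ : Γ ∈ Car K) (hG : G ∈ Car K)
    (g0 : 0 ≤ G) (up : ∀ Q ∈ S, ∀ P, CLe Λ Q P → P ∈ S) (k : ∀ Q ∈ S, -1 < dsc (n + 1) Γ Q)
    (hR : R ∈ S) (g : dsc (n + 1) (Γ + G) R ≤ -1) (d0 : 0 < δ) :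
    ∃ (μ : ℝ) (D : BD K) (P : Pl K), 0 < μ ∧ μ < 1 ∧ Rep (δ • Λ) D ∧ P ∈ S ∧
      dsc (n + 1) (Γ + μ • G + D) P = -1 ∧
      ∀ Q ∈ S, Q ≠ P → -1 < dsc (n + 1) (Γ + μ • G + D) Q := by
  obtain ⟨μ, D, P, a, b, c, d, e, -, -, f, i, j⟩ := tie_big hK hΛ hb hΓ hG g0 up k hR g d0
  obtain ⟨F, r, z, w⟩ := ber hK (finite_singleton P) (toFinite {Γ + μ • G + D, Λ})
    (forall_mem_insert.2 ⟨add_mem (add_mem hΓ (Submodule.smul_mem _ μ hG)) d,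
      forall_eq.2 hΛ.car⟩) e one_half_pos
  refine ⟨μ, D + F, P, a, b, by simpa using (Rep.refl c).add r, f, ?_, fun Q hQ ne => ?_⟩
  · rw [← add_assoc, dsc_add, i, z P rfl, sub_zero]
  · have := w _ (Submodule.subset_span (mem_insert _ _)) Q fun R x => by
      by_cases y : R = P
      · exact y ▸ i.ge
      · exact (j R (up Q hQ R (x Λ (Submodule.subset_span (by simp)))) y).le
    rw [← add_assoc, dsc_add]
    linarith [j Q hQ ne]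

end Vale.Agent.P287D.Ti
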