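import Vale.Agent.P287D.Pr.Lr
import Vale.Agent.P287D.Cb.Kap
import Vale.Agent.P297Z.Diff.Jac

/-!
# P287D: smooth prime divisors are purely log terminal
-/

set_option linter.all false

open Set
open Vale.Agent.P297 (Place)
open Vale.Agent.P285N.Brep (jac Fr)
open Vale.Agent.P277Z Vale.Agent.P277Z.FI Vale.Agent.P277Z.F5

noncomputable section

namespace Vale.Agent.P287D.Ti

open Ba Pr MvPolynomial

variable {n : ℕ} {K : Type} [Field K] [Algebra ℂ K]

theorem der_aeval {y : Fin n → K} {D : Fin n → Derivation ℂ K K} (h : Fr y D) (i : Fin n)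
    (p : MvPolynomial (Fin n) ℂ) : D i (aeval y p) = aeval y (pderiv i p) := by
  induction p using MvPolynomial.induction_on with
  | C a => simp
  | add p q hp hq => simp [hp, hq]
  | mul_X p j hp =>
    rw [map_mul, Derivation.leibniz, Derivation.leibniz, hp, aeval_X, h.dual, pderiv_X,
      Pi.single_apply]
    by_cases hij : i = j
    · simp [hij]
    · simp [hij, Ne.symm hij]

/-- the log inequality is strict if the residues of the other coordinates are dependent -/
theorem kap_plt {y : Fin (n + 1) → K} {D : Fin (n + 1) → Derivation ℂ K K} (h : Fr y D)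
    {Q : Pl K} (hy : ∀ j, y j ∈ Q.ring) (i : Fin (n + 1))
    (hd : ¬ AlgebraicIndependent ℂ fun j => Q.rd (y (i.succAbove j))) :
    (Q.ord (y i) : ℝ) ≤ kap y Q := by
  classical
  obtain ⟨U, u1, -, k, u2⟩ := P297Z.Diff.exists_mem_pderiv_notMem
    (P := RingHom.ker (aeval (R := ℂ) fun j => Q.rd (y (i.succAbove j))))
    (fun e => hd ((RingHom.injective_iff_ker_eq_bot _).2 e)) (RingHom.ker_ne_top _)
  have r := Cb.rd_aeval (P := Q) (u := fun j => y (i.succAbove j)) fun j => hy _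
  have m : ∀ p : MvPolynomial (Fin n) ℂ, aeval (fun j => y (i.succAbove j)) p ∈ Q.ring := fun p =>
    Cb.adj_mem (S := range fun j => y (i.succAbove j)) (forall_mem_range.2 fun j => hy _)
      (by rw [Algebra.adjoin_range_eq_range_aeval]; exact ⟨p, rfl⟩)
  have e : jac D (Function.update y (i.succAbove k) (aeval (fun j => y (i.succAbove j)) U)) =
      aeval (fun j => y (i.succAbove j)) (pderiv k U) := by
    have := der_aeval h (i.succAbove k) (rename i.succAbove U)
    rw [pderiv_rename Fin.succAbove_right_injective, aeval_rename, aeval_rename] at this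
    rw [CnA.jac_upd h.dual]
    exact this
  have w : Q.rd (aeval (fun j => y (i.succAbove j)) (pderiv k U)) ≠ 0 := by
    rw [r]; exact u2
  rw [Ne, Bm.rd_zero_iff Q (m _), not_or, ← e] at w
  have a := (Cb.jac_ne_iff h _).1 w.1
  have b := Cb.sum_le_kap (Cb.ff_of h) a Q
  have c : Q.ord (jac D (Function.update y (i.succAbove k)
      (aeval (fun j => y (i.succAbove j)) U))) = 0 :=
    le_antisymm (not_lt.1 w.2) (P297Z.Pl.ord_nonneg_of_mem _ (e ▸ m _))
  have g := ((Bm.rd_zero_iff Q (m U)).1 (by rw [r]; exact u1)).resolve_left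
    (by simpa using a.ne_zero (i.succAbove k))
  rw [Cb.kap_chg h w.1, Pi.add_apply, dv_apply, c] at b
  have d := Finset.add_le_sum (s := Finset.univ) (f := fun j => (Q.ord (Function.update y
    (i.succAbove k) (aeval (fun j => y (i.succAbove j)) U) j) : ℝ)) (fun j _ => by
      refine Int.cast_nonneg (P297Z.Pl.ord_nonneg_of_mem _ ?_)
      by_cases z : j = i.succAbove k
      · rw [z, Function.update_self]; exact m U
      · rw [Function.update_of_ne z]; exact hy j) (Finset.mem_univ i)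
    (Finset.mem_univ (i.succAbove k)) (Fin.succAbove_ne i k).symm
  rw [Function.update_self, Function.update_of_ne (Fin.succAbove_ne i k).symm] at d
  have g' : (1 : ℝ) ≤ Q.ord (aeval (fun j => y (i.succAbove j)) U) := by exact_mod_cast g
  simp only [Int.cast_zero] at b
  linarith

/-- smooth prime divisors are purely log terminal -/
theorem plt_bar {M : Mdl (n + 1) 0 K} (hM : M.Proj) {U : Set (Place K)} (hU : M.Snc U)
    {P Q : Pl K} (hP : P.toPlace ∈ U) (ne : Q ≠ P) :
    bar M (Finsupp.single P.toPlace 1) Q ≤ dsc (n + 1) (bar M (KM M)) Q := by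
  by_cases k : M.Pr Q.toPlace
  · rw [bar_pr hM k, Finsupp.single_eq_of_ne (pl_inj.ne ne)]
    exact disc_nonneg hM Q
  obtain ⟨x, hx⟩ := ct hM Q
  obtain ⟨t, ht, h1⟩ := hU.2 x
  rw [bar_ct hM hx, ordAt_single, one_mul]
  by_cases o : M.On x P.toPlace
  · obtain ⟨i, hi⟩ := h1 _ hP o
    obtain ⟨D, f, -⟩ := fr_coord hM ht
    rw [ord_gn_eq (eqn_gn o) hi hx]
    exact (kap_plt f (fun j => hx _ (ht.1 j).1) i fun a =>
      k ⟨x, Bm.on_of_ai hM hx (fun j => (ht.1 _).1) a⟩).trans_eq (disc_kap hM ht hx).symm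
  · rw [eqn_off o, P297Z.Pl.ord_one, Int.cast_zero]
    exact disc_nonneg hM Q

/-- **log resolution of a nef and big class**, with smooth components -/
theorem exists_lsx (hK : FF K (n + 1)) {T₀ : Set (Pl K)} (hT : T₀.Finite) {B : Set (BD K)}
    (hB : B.Finite) (hc : ∀ β ∈ B, β ∈ Car K) {X : BD K} (hX : Nef X) (hb : Big X) :
    ∃ (s : Finset K) (κ : BD K) (T : Finset (Pl K)) (h : Pl K → BD K) (E : BD K),
      LS n (mx s) κ T h ∧ (∀ P ∈ T, ∀ Q, Q ≠ P → h P Q ≤ dsc (n + 1) κ Q) ∧ (∀ P ∈ T₀, P ∈ T) ∧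
      Sup n (mx s) T κ ∧ (∀ β ∈ B, Sup n (mx s) T β) ∧ Sup n (mx s) T X ∧ Sup n (mx s) T E ∧
      0 ≤ E ∧ ∀ ε : ℝ, 0 < ε → ε ≤ 1 → AmpOn (mx s) (X - ε • E) := by
  classical
  obtain ⟨M₀, h₀⟩ := Bm.exists_mdl hK
  obtain ⟨M, m, U, D, E, hM, u1, u2, u3, u4, u5, u6, d1, rfl, d2, -, e1, e2, e3, e4⟩ :=
    Nb.nb h₀ hX hb hB hc hT (KM M₀).support.finite_toSet
  obtain ⟨H, s, hH, hs, -⟩ := exists_pol hM
  have f1 := u1.preimage (pl_inj (K := K)).injOn
  have k1 : ∀ P : Pl K, KM M P.toPlace ≠ 0 → P ∈ f1.toFinset := fun P hP => f1.mem_toFinset.2 (by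
    have p := KM_dv hM _ (Finsupp.mem_support_iff.2 hP)
    by_cases k : M₀.Pr P.toPlace
    · exact u5 _ (Finsupp.mem_support_iff.2 (by rwa [← KM_pr h₀ k, KM_pr hM p])) p
    · exact u3 ⟨p, k⟩)
  have k2 : ∀ G : P277Z.Div K, (G.support : Set (Place K)) ⊆ U →
      Sup n (mx s) f1.toFinset (bar M G) := fun G b =>
    hs ▸ sup_of hM hH fun P hP => f1.mem_toFinset.2 (b (Finsupp.mem_support_iff.2 hP))
  refine ⟨s, _, f1.toFinset, _, bar M E, hs ▸ ls_of hM hH u2 fun P => f1.mem_toFinset.1,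
    fun P hP Q => plt_bar hM u2 (f1.mem_toFinset.1 hP), fun P hP => f1.mem_toFinset.2 (u4 P hP),
    hs ▸ sup_of hM hH k1, fun β hβ => ?_, k2 D d2, k2 E e3, bar_nonneg hM e2, fun ε a b => ?_⟩
  · obtain ⟨G, -, rfl, b, -⟩ := u6 β hβ
    exact k2 G b
  · rw [hs, ← map_smul, ← map_sub]
    exact .of_dsc (dsc_bar hM hH.amp hH.dv _)
      (dsc_bar hM (e4 ε a b) (dv_sub d1 (FI.dv_smul e1 ε)) _)

end Vale.Agent.P287D.Ti
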