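import Vale.Agent.P287D.Ti.Tie
import Vale.Agent.P287D.Tg.St
import Vale.Agent.P287D.Gm.Pt

/-!
# P287D: a large volume gives a tiger at the generic point
-/

set_option linter.all false

open Set

noncomputable section

namespace Vale.Agent.P287D.Ti

open Pr Tg

variable {n : ℕ} {K K' : Type} [Field K] [Algebra ℂ K] [Field K'] [Algebra ℂ K'] {φ : K →+* K'}

/-- big classes have members through any place -/
theorem rep_pos {N : BD K} (h : Big N) (Q : Pl K) : ∃ G, Rep N G ∧ 0 < G Q := by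
  obtain ⟨ε, e, E, r⟩ := h.exists_eff (pld_car Q.t⁻¹)
  refine ⟨E + ε • pld Q.t⁻¹, by
    simpa using r.add (.refl (smul_nonneg e.le (pld_nonneg Q.t⁻¹))), ?_⟩
  refine add_pos_of_nonneg_of_pos (r.1 Q) (mul_pos e ?_)
  rw [pld_apply, ← dv_apply, dv_inv, Pi.neg_apply, dv_apply, Q.ord_t]
  simp

/-- a centre through a generic point is generic -/
theorem trv_of_cle (ok : Ok φ) {N : BD K} {N' : BD K'} (h : Big N) (e : N' - pb φ N ∈ Prn K')
    {x P : Pl K'} (t : Trv φ x) (c : CLe N' x P) : Trv φ P :=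
  (ok P).elim id fun ⟨Q, l⟩ => by
    obtain ⟨G, r, g⟩ := rep_pos h Q
    have := c _ ((ok.rep r).congr e) (by
      rw [l.pb]; exact mul_pos (Int.cast_pos.2 l.e_pos) g)
    exact absurd (t.pb G) this.ne'

theorem up_prn {G : BD K} {G' : BD K'} (u : Up n φ G G') : -G' - pb φ (-G) ∈ Prn K' := by
  obtain ⟨f, -, rfl⟩ := u.eq
  rw [pb_neg, neg_sub, sub_neg_eq_add, sub_add_cancel]
  exact dv_mem_Prn f

theorem up_trv {G : BD K} {G' : BD K'} (u : Up n φ G G') {x P : Pl K'} (t : Trv φ x)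
    (c : CLe (-G') x P) : Trv φ P :=
  trv_of_cle (u.ext.ok u.can'.ff) u.can.big (up_prn u) t c

/-- a divisor which is not klt at the centre of `x` gives a tiger -/
theorem lo_of {G F : BD K} (c : Can n G) {a ε : ℝ} (a0 : 0 ≤ a) (a1 : a < ε) (e1 : ε < 1)
    (f0 : 0 ≤ F) (fs : Smp (a • -G - F)) {x R : Pl K} (hR : CLe (-G) x R)
    (g : dsc (n + 1) (G + F) R ≤ -1) : ∃ Δ P, Lo n G Δ ε P ∧ CLe (-G) x P := by
  have fc : F ∈ Car K := by simpa using sub_mem (c.smp.smul a0).car fs.car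
  obtain ⟨μ, D, P, m0, m1, d0, dc, ds, -, db, p, lc, pl⟩ := tie_big (S := {Q | CLe (-G) x Q})
    c.ff c.smp.nef c.big (by simpa using neg_mem c.smp.car) fc f0 (fun Q a P b => a.trans b)
    (fun Q _ => neg_one_lt_zero.trans_le (c.nn Q)) hR g (sub_pos.2 a1)
  have s : Smp (μ • (a • -G - F) + ((1 - μ) * a) • -G) :=
    (fs.smul m0.le).add (c.smp.smul (mul_nonneg (sub_nonneg.2 m1.le) a0))
  have e : ε • -G - (μ • F + D) =
      ((ε - a) • -G - D) + (μ • (a • -G - F) + ((1 - μ) * a) • -G) := by module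
  refine ⟨μ • F + D, P, ⟨c, a0.trans_lt a1, e1, add_mem (Submodule.smul_mem _ μ fc) dc,
    add_nonneg (smul_nonneg m0.le f0) d0, e ▸ ds.add s, ?_, add_assoc G _ D ▸ lc,
    fun Q ne k => add_assoc G _ D ▸ pl Q (p.trans k) ne⟩, p⟩
  rw [e, res_add c.ff P ds.car s.car]
  exact db.add_smp (res_smp c.ff P s)

/-- **T1** -/
theorem t1_of (upx : UPX) : T1 := fun n ε e0 e1 =>
  ⟨((n + 1) / (ε / 2)) ^ (n + 1), fun K _ _ G c hv => by
    obtain ⟨K', _, _, φ, x, h, hK', p⟩ := Gm.gen_pt n K c.ff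
    obtain ⟨f, t, u⟩ := upx n K K' φ G c h hK'
    obtain ⟨F, r, k⟩ := p.mult _ c.smp.nef _ (by positivity) hv
    have r' := (r.congr (up_prn u)).smul (half_pos e0).le
    obtain ⟨Δ, P, l, q⟩ := lo_of u.can' (half_pos e0).le (half_lt_self e0) e1 r'.1
      (.of_prn (by simpa using neg_mem r'.2)) (.refl _ x) (by
        have a := p.dsc f t
        have b := Trv.pb p.triv G
        have d := (div_le_iff₀' (half_pos e0)).1 k
        simp only [dsc, Pi.add_apply, Pi.sub_apply, Pi.smul_apply, smul_eq_mul] at a ⊢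
        linarith)
    exact ⟨K', _, _, φ, _, Δ, P, u, l, up_trv u p.triv q⟩⟩

end Vale.Agent.P287D.Ti
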