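import Vale.Agent.P287D.Ti.Two
import Vale.Agent.P287D.Tg.Up
import Vale.Agent.P287D.Pb.Res

/-!
# P287D: centres through the generic point of a prime divisor
-/

set_option linter.all false

open Set

noncomputable section

namespace Vale.Agent.P287D.Ti

variable {n m : ℕ} {K₀ K K' : Type} [Field K₀] [Algebra ℂ K₀] [Field K] [Algebra ℂ K] [Field K']
  [Algebra ℂ K'] {φ : K₀ →+* K} {ψ : K →+* K'} {Λ G : BD K} {Λ' : BD K'} {P : Pl K}
  {P' R : Pl K'} {ρ : P.κ →+* P'.κ} {x Q : Pl P'.κ}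

/-- **T1** -/
theorem t1 : Tg.T1 := t1_of Tg.upx

/-- a member through a given proper centre which does not contain the prime divisor `P` -/
theorem rep_thru (hK : FF K (n + 1)) (hΛ : Smp Λ) (hb : Big Λ) (o : On n Λ P) (Q : Pl P.κ) :
    ∃ G, Rep Λ G ∧ G P = 0 ∧ 0 < res P G Q := by
  obtain ⟨R, ⟨ne, -⟩, -, -, r, -⟩ := a2 n K hK P Q ∅ Λ 0 finite_empty (empty_subset _) hΛ.car
  obtain ⟨G, a, b, c⟩ := not_cle fun k => ne (On.eq_of_cle hK hΛ hb o k)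
  exact ⟨G, a, c, b.trans_le (r G a c).1⟩

section

variable (hc : Cst ψ) (hK : FF K (n + 1)) (hK' : FF K' (m + 1)) (l : Lies ψ P' P)
  (r : IsRd ψ P' P ρ) (hΛ : Λ ∈ Car K) (e : Λ' - pb ψ Λ ∈ Prn K') (t : Trv ρ x)

include hc hK hK' l r hΛ e t

theorem pb_mem (g : Rep Λ G) (z : G P = 0) : Rep Λ' (pb ψ G) ∧ pb ψ G P' = 0 ∧
    res P' (pb ψ G) = pb ρ (res P G) ∧ ¬ 0 < res P' (pb ψ G) x := by
  have k := (hc.res_lies res' hK hK' l r (g.car hΛ)).2 z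
  exact ⟨((hc.ok hK hK').rep g).congr e, by rw [l.pb, z, mul_zero], k, by
    rw [k, t.pb]; exact lt_irrefl _⟩

theorem cu_trv (hs : Smp Λ) (hb : Big Λ) (o : On n Λ P) (c : Cu Λ' P' x Q) : Trv ρ Q :=
  (r.ok hc hK hK' Q).elim id fun ⟨Q₀, k⟩ => by
    obtain ⟨G, g, z, p⟩ := rep_thru hK hs hb o Q₀
    obtain ⟨a, b, d, f⟩ := pb_mem hc hK hK' l r hΛ e t g z
    exact (f (c _ a b (by rw [d, k.pb]; exact mul_pos (Int.cast_pos.2 k.e_pos) p))).elim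

theorem cq_zero (c : Cq Λ' P' x R) (g : Rep Λ G) (z : G P = 0) : pb ψ G R = 0 := by
  obtain ⟨a, b, -, f⟩ := pb_mem hc hK hK' l r hΛ e t g z
  exact le_antisymm (not_lt.1 fun p => f (c _ a b p)) (a.1 R)

theorem cq_trv (ok : Ok φ) {N : BD K₀} (hN : Big N) (e₀ : Λ - pb φ N ∈ Prn K) (t₀ : Trv φ P)
    (c : Cq Λ' P' x R) : Trv (ψ.comp φ) R :=
  (((hc.ok hK hK').comp ok) R).elim id fun ⟨Q₀, k⟩ => by
    obtain ⟨G, g, p⟩ := rep_pos hN Q₀
    have := cq_zero hc hK hK' l r hΛ e t c ((ok.rep g).congr e₀) (t₀.pb G)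
    rw [← (hc.ok hK hK').pb_comp, k.pb] at this
    exact absurd this (mul_pos (Int.cast_pos.2 k.e_pos) p).ne'

end

end Vale.Agent.P287D.Ti
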