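import Vale.Agent.P287D.Ti.One
import Vale.Agent.P287D.Ad.All
import Vale.Agent.P287D.On.Cen
import Vale.Agent.P287D.Sc.Sur

/-!
# P287D: local inversion of adjunction, cutting a tiger
-/

set_option linter.all false

open Set Filter Topology

noncomputable section

namespace Vale.Agent.P287D.Ti

open Pr Tg

variable {n : ℕ} {K : Type} [Field K] [Algebra ℂ K] {Λ Γ G F Δ D : BD K} {P R : Pl K}
  {Q Q' : Pl P.κ}

/-- an effective exceptional divisor through a given exceptional place -/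
theorem exc_div (hK : FF K (n + 1)) (hΛ : Smp Λ) (hb : Big Λ) (hR : ¬ On n Λ R) :
    ∃ (H : BD K) (ε : ℝ), 0 ≤ H ∧ 0 < ε ∧ Smp (Λ - ε • H) ∧ 0 < H R ∧ ∀ F, On n Λ F → H F = 0 := by
  classical
  obtain ⟨s, -, am⟩ := hΛ.exists_ampOn
  have k : ∀ F, On n Λ F → ∃ H : BD K, (∃ (m : ℕ) (u : Finset K), mx u = (m : ℝ) • mx s - H) ∧
      0 ≤ H ∧ 0 < H R ∧ H F = 0 := fun F hF => by
    by_contra z
    have : CLe (mx s) F R := On.cle_of_sec hK (carQ_mx s) fun m w w0 a b =>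
      (a.resolve_left w0 F).lt_of_ne fun e => z ⟨_, ⟨m, {w}, by rw [mx_single]; abel⟩,
        a.resolve_left w0, b, e.symm⟩
    exact hR (On.eq_of_cle hK hΛ hb hF (am.cle_iff.2 this) ▸ hF)
  obtain ⟨G, r, g⟩ := rep_pos hb R
  obtain ⟨F₀, o, -⟩ := (pos_iff res' isb hK hΛ hb ((Dsc.refl hΛ).congr r.2) r.1).1 g
  obtain ⟨H₀, ⟨m₀, u₀, e₀⟩, a₀, b₀, -⟩ := k F₀ o
  have i : ∀ T : Finset (Pl K), ∃ H : BD K, (∃ (m : ℕ) (u : Finset K),
      mx u = (m : ℝ) • mx s - H) ∧ 0 ≤ H ∧ H ≤ H₀ ∧ 0 < H R ∧ ∀ F ∈ T, On n Λ F → H F = 0 :=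
    fun T => by
      induction T using Finset.induction_on with
      | empty => exact ⟨H₀, ⟨m₀, u₀, e₀⟩, a₀, le_rfl, b₀, by simp⟩
      | insert F T _ ih =>
        obtain ⟨H, ⟨m, u, e⟩, a, b, c, d⟩ := ih
        by_cases hF : On n Λ F
        swap
        · exact ⟨H, ⟨m, u, e⟩, a, b, c, Finset.forall_mem_insert _ _ _ |>.2 ⟨fun z => (hF z).elim, d⟩⟩
        obtain ⟨H', ⟨m', u', e'⟩, a', c', d'⟩ := k F hF
        obtain ⟨x, -, hx⟩ := exists_mx_nsmul s m
        obtain ⟨x', -, hx'⟩ := exists_mx_nsmul s m'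
        obtain ⟨y, y0, hy⟩ := exists_mx_add u x'
        obtain ⟨y', y0', hy'⟩ := exists_mx_add u' x
        refine ⟨H ⊓ H', ⟨m + m', y ∪ y', ?_⟩, le_inf a a', inf_le_left.trans b, lt_min c c',
          Finset.forall_mem_insert _ _ _ |>.2 ⟨fun _ => le_antisymm ((min_le_right _ _).trans d'.le)
            (le_inf a a' F), fun E p q => le_antisymm ((min_le_left _ _).trans (d E p q).le)
            (le_inf a a' E)⟩⟩
        rw [mx_union y0 y0', hy, hy', hx, hx', e, e', sub_inf, Nat.cast_add, add_smul]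
        congr 1 <;> abel
  have c₀ : H₀ ∈ Car K := by
    rw [eq_sub_iff_add_eq, ← eq_sub_iff_add_eq'] at e₀
    exact e₀ ▸ sub_mem (Submodule.smul_mem _ _ (mx_mem_Car s)) (mx_mem_Car u₀)
  have fin := fin_on res' hK hΛ hb ((isb n K hK).1 _ c₀)
  obtain ⟨H, ⟨m, u, e⟩, a, b, c, d⟩ := i fin.toFinset
  obtain ⟨ε, e0, sm⟩ := am.dsc.exists_sub
  have p : 0 < ε / (m + 1) := by positivity
  refine ⟨H, ε / (m + 1), a, p, ?_, c, fun F hF => ?_⟩
  · have := (sm.add ((smp_mx s).smul p.le)).add ((smp_mx u).smul p.le)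
    rwa [e, show Λ - ε • mx s + (ε / (m + 1)) • mx s + (ε / (m + 1)) • ((m : ℝ) • mx s - H) =
      Λ - (ε / (m + 1)) • H by match_scalars <;> field_simp <;> ring] at this
  · by_cases z : H₀ F = 0
    · exact le_antisymm ((b F).trans z.le) (a F)
    · exact d F (fin.mem_toFinset.2 ⟨hF, z⟩) hF

/-- an exceptional log canonical place gives an exceptional tiger -/
theorem lo_off (c : Can n G) {a ε : ℝ} (a0 : 0 ≤ a) (a1 : a < ε) (e1 : ε < 1) (f0 : 0 ≤ F)
    (fs : Smp (a • -G - F)) (hR : ¬ On n (-G) R) (g : dsc (n + 1) (G + F) R ≤ -1)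
    (lc : ∀ Q, CLe (-G) R Q → -1 ≤ dsc (n + 1) (G + F) Q) :
    ∃ Δ P, Lo n G Δ ε P ∧ CLe (-G) R P ∧ ¬ On n (-G) P := by
  have fc : F ∈ Car K := by simpa using sub_mem (c.smp.smul a0).car fs.car
  obtain ⟨H, η, h0, η0, hs, hp, hz⟩ := exc_div c.ff c.smp c.big hR
  have hc : η • H ∈ Car K := by simpa using sub_mem c.smp.car hs.car
  obtain ⟨b, b0, b1⟩ : ∃ b, 0 < b ∧ ε = a + b + b := ⟨(ε - a) / 2, half_pos (sub_pos.2 a1), by ring⟩
  have x0 : 0 < b * (η * H R) := by positivity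
  obtain ⟨t, ⟨t1, t2⟩, t0⟩ := (((gt_mem_nhds one_pos : ∀ᶠ t in 𝓝 (0 : ℝ), t < 1).and
    ((show Tendsto (fun t : ℝ => t * F R) (𝓝 0) (𝓝 0) by
      simpa using (continuous_mul_const (F R)).tendsto 0).eventually (gt_mem_nhds x0))).filter_mono
    nhdsWithin_le_nhds).and (self_mem_nhdsWithin (s := Ioi (0 : ℝ))) |>.exists
  have t0 : 0 < t := t0
  obtain ⟨μ, D, P, z, m0, m1, d0, dc, ds, -, db, p, l, pl⟩ := tie_big0 (S := {Q | CLe (-G) R Q})
    (Γ := G + (1 - t) • F) (G := b • η • H) c.ff c.smp.nef c.big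
    (add_mem (by simpa using neg_mem c.smp.car) (Submodule.smul_mem _ _ fc))
    (Submodule.smul_mem _ _ hc) (smul_nonneg b0.le (smul_nonneg η0.le h0))
    (fun Q a P b => a.trans b) (fun Q hQ => by
      have u := lc Q hQ
      have v : 0 ≤ dsc (n + 1) G Q := c.nn Q
      rw [dsc_add] at u
      rw [dsc_add_smul]
      nlinarith) (CLe.refl _ R) (by
      rw [dsc_add] at g
      rw [dsc_add_smul, dsc_add_smul, Pi.smul_apply, smul_eq_mul]
      linarith) b0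
  have s : Smp ((1 - t) • (a • -G - F) + (μ * b) • (-G - η • H) + (t * a + (1 - μ) * b) • -G) :=
    ((fs.smul (sub_pos.2 t1).le).add (hs.smul (mul_pos m0 b0).le)).add (c.smp.smul
      (add_nonneg (mul_nonneg t0.le a0) (mul_nonneg (sub_nonneg.2 m1.le) b0.le)))
  have e : ε • -G - ((1 - t) • F + μ • b • η • H + D) = (b • -G - D) +
      ((1 - t) • (a • -G - F) + (μ * b) • (-G - η • H) + (t * a + (1 - μ) * b) • -G) := by
    rw [b1]; module
  have e' : G + ((1 - t) • F + μ • b • η • H + D) = G + (1 - t) • F + μ • b • η • H + D := by abel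
  refine ⟨(1 - t) • F + μ • b • η • H + D, P, ⟨c, a0.trans_lt a1, e1, add_mem (add_mem
    (Submodule.smul_mem _ _ fc) (Submodule.smul_mem _ _ (Submodule.smul_mem _ _ hc))) dc,
    add_nonneg (add_nonneg (smul_nonneg (sub_pos.2 t1).le f0) (smul_nonneg m0.le
      (smul_nonneg b0.le (smul_nonneg η0.le h0)))) d0, e ▸ ds.add s, ?_, e' ▸ l,
    fun Q ne k => e' ▸ pl Q (p.trans k) ne⟩, p, fun o => ?_⟩
  · rw [e, res_add c.ff P ds.car s.car]
    exact db.add_smp (res_smp c.ff P s)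
  · simp [hz P o] at z

/-- the centre of `Q` on `V Λ` lies in the centre of `Q'` -/
def Cu (Λ : BD K) (P : Pl K) (Q Q' : Pl P.κ) : Prop :=
  ∀ G, Rep Λ G → G P = 0 → 0 < res P G Q' → 0 < res P G Q

theorem Cu.up (hK : FF K (n + 1)) (hΛ : Λ ∈ Car K) (h : Cu Λ P Q Q') {Q'' : Pl P.κ}
    (k : CLe (res P Λ) Q' Q'') : Cu Λ P Q Q'' :=
  fun G r z p => h G r z (k _ (res_rep hK P hΛ r z) p)

theorem cq_up (h : Cq Λ P Q R) {R' : Pl K} (k : CLe Λ R R') : Cq Λ P Q R' :=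
  fun G r z p => h G r z (k G r p)

/-- a divisor away from `Q` which cancels the singularities of a pair on `P` -/
theorem exists_off (hK : FF K (n + 1)) (hΛ : Smp Λ) {X : BD P.κ} (hX : X ∈ Car P.κ)
    (hk : ∀ Q', Cu Λ P Q Q' → -1 < dsc n X Q') : ∃ G, Off Λ P Q G ∧ Klt n (X - res P G) := by
  classical
  have hL := Bm.ff_κ hK P
  obtain ⟨m, rfl⟩ := Ba.ff_succ hL Q
  obtain ⟨s, κ, T, h, l, -, sκ, sB⟩ := exists_ls hL finite_empty (toFinite {X, res P Λ})
    (forall_mem_insert.2 ⟨hX, forall_eq.2 (res_car hK P Λ)⟩)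
  have k : ∀ Q', ∃ G, Off Λ P Q G ∧ -1 < dsc (m + 1) X Q' + res P G Q' := fun Q' => by
    by_cases z : Cu Λ P Q Q'
    · exact ⟨0, ⟨le_rfl, .zero hΛ, rfl, by simp [res_zero hK]⟩, by simpa [res_zero hK] using hk Q' z⟩
    simp only [Cu, not_forall, not_lt] at z
    obtain ⟨G, r, z, p, q⟩ := z
    obtain ⟨c, hc⟩ := exists_nat_gt ((-1 - dsc (m + 1) X Q') / res P G Q')
    have gc := r.car hΛ.car
    refine ⟨(c : ℝ) • G, ⟨smul_nonneg c.cast_nonneg r.1, ((Dsc.refl hΛ).congr r.2).smul _,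
      by simp [z], ?_⟩, ?_⟩ <;> rw [res_smul hK P _ gc, Pi.smul_apply, smul_eq_mul]
    · rw [le_antisymm q (res_nonneg hK P gc r.1 z Q), mul_zero]
    · linarith [(div_lt_iff₀ p).1 hc]
  choose G o g using k
  have e := res_sum hK P T fun i _ => (o i).des.car
  have nn := fun i => res_nonneg hK P (o i).des.car (o i).nn (o i).zp
  refine ⟨∑ i ∈ T, G i, ⟨Finset.sum_nonneg fun i _ => (o i).nn, .sum hΛ T fun i _ => (o i).des,
    by simp [fun i => (o i).zp], by simp [e, fun i => (o i).zq]⟩, fun R => ?_⟩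
  obtain ⟨a, b⟩ := l.hull_sum (∑ i ∈ T, res P (G i))
  have d : Dsc (mx s) (∑ i ∈ T, res P (G i)) := .sum l.smp T fun i _ =>
    (sB _ (by simp)).1.trans (res_dsc hK P (o i).des)
  have le := l.hart _ (d.sub a) fun R hR => by
    rw [Pi.sub_apply, b R hR]
    split_ifs
    · simp
    · simpa using Finset.sum_nonneg (fun i _ => nn i) R
  have u := l.gt (Q := R) (Γ := X - ∑ R ∈ T, (∑ i ∈ T, res P (G i)) R • h R)
    (sκ.sub ((sB X (by simp)).sub ⟨a, fun R x y => (b R x).trans (if_neg y)⟩)) le_rfl one_pos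
    fun R hR _ => by
      have x := (b R (l.on R hR)).trans (if_pos hR)
      have y := Finset.single_le_sum (f := fun i => res P (G i)) (fun i _ => nn i) hR R
      have := g R
      simp only [dsc, Pi.sub_apply] at this x ⊢
      linarith
  have := le R
  rw [e]
  simp only [dsc, Pi.sub_apply, Pi.zero_apply] at this u ⊢
  linarith

/-- **local inversion of adjunction** -/
theorem a5l (hK : FF K (n + 1)) (hΛ : Smp Λ) (hb : Big Λ) {c : ℝ} (hΓ : Nef (c • Λ - Γ))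
    (hB : Bdy n Λ Γ) (hP : dsc (n + 1) Γ P = -1)
    (hk : ∀ Q', Cu Λ P Q Q' → -1 < dsc n (adj n P Γ) Q') (hR : R ≠ P) (cq : Cq Λ P Q R) :
    -1 < dsc (n + 1) Γ R := by
  classical
  have cΓ := Ae.car_of_nef hΛ hΓ
  obtain ⟨G, o, kl⟩ := exists_off hK hΛ (a1 n K hK P Γ cΓ).1 hk
  have cG := o.des.car
  rw [sub_eq_add_neg, ← res_neg hK P cG, ← (a4 n K hK P Γ cΓ _ (neg_mem cG)).1] at kl
  obtain ⟨c', hc'⟩ := Ae.nef_of_dsc o.des.neg
  obtain ⟨s, ε, m, hs, -, -, hd, hm⟩ := Ae.setupG (c := c + c') (Γ := Γ + -G) hΛ hb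
    (by rw [add_smul, add_sub_add_comm]; exact hΓ.add hc')
  obtain ⟨w, hw, e⟩ := exists_mx_nsmul s m
  have hd' : Dsc Λ (mx w) := e ▸ hd.smul _
  obtain ⟨g, hg, g0, g1, g2⟩ := Ae.exists_mem res' hK hw P Q
  have gP : P.ord g + P.mz w = 0 := by
    rw [Pi.add_apply, dv_apply, mx_apply] at g1
    exact_mod_cast g1
  have eg := res_add hK P (dv_mem_Car g) (mx_mem_Car w)
  rw [res_dv' hK P g0 gP] at eg
  have fin := fin_on res' hK hΛ hb ((isb n K hK).1 _ cG)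
  obtain ⟨b, hb'⟩ := (fin.image fun R => (⌈G R⌉ : ℝ) / G R).bddAbove
  obtain ⟨f, f0, a, fo, r, z⟩ := Ae.lift (β := b • G) adh hK hΛ hb (add_mem cΓ (neg_mem cG))
    (by rw [dsc_add, hP, Pi.neg_apply, o.zp, neg_zero, sub_zero]) (o.des.smul b) (by simp [o.zp])
    (fun R hR _ => by
      refine (Int.cast_le.2 (Int.ceil_le_ceil (show _ ≤ G R by
        rw [dsc_add, Pi.neg_apply]; linarith [hB R hR]))).trans ?_
      by_cases y : G R = 0
      · simp [y]
      · exact (div_le_iff₀ ((o.nn R).lt_of_ne (Ne.symm y))).1 (hb' ⟨R, ⟨hR, y⟩, rfl⟩))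
    (mx_mem_CarZ w) hd' (mx_apply w P) (e ▸ (hm m le_rfl).1) (e ▸ (hm m le_rfl).2)
    (Aj.rd_ne (mul_ne_zero g0 (zpow_ne_zero (P.mz w) P.t_ne)) (by rw [P.ord_mul_t g0, gP]))
    (Or.inr fun Q => by
      have a := res_nonneg hK P (add_mem (dv_mem_Car g) (mx_mem_Car w))
        (dv_add_mx_nonneg hg g0) g1 Q
      rw [eg] at a
      have b : (0 : ℝ) ≤ ⌈dsc n (adj n P (Γ + -G)) Q⌉ := by
        exact_mod_cast Int.lt_add_one_iff.1 (sub_lt_iff_lt_add.1 (Int.lt_ceil.2 (by simpa using kl Q)))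
      simp only [Pi.add_apply, Pi.zero_apply] at a ⊢
      linarith)
  have x := Ae.off_zero res' hK hΛ o cq
  have y := Ae.off_zero res' hK hΛ (G := dv f + (b • G + mx w)) ⟨a, (Dsc.dv hΛ f).add
    ((o.des.smul b).add hd'), by simp [dv_apply, mx_apply, fo, o.zp], by
      rw [eg] at g2
      rw [res_add hK P (dv_mem_Car f) ((o.des.smul b).add hd').car, res_add hK P (o.des.smul b).car
        (mx_mem_Car w), res_smul hK P b cG, res_dv' hK P f0 (k := P.mz w) (by omega), r]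
      simpa [o.zq] using g2⟩ cq
  by_contra hc
  have u : (⌈dsc (n + 1) (Γ + -G) R⌉ : ℝ) ≤ ((-1 : ℤ) : ℝ) :=
    Int.cast_le.2 (Int.ceil_le.2 (by rw [dsc_add]; simpa [x] using hc))
  have := z R hR
  simp only [Pi.add_apply, Pi.smul_apply, x, smul_zero, dv_apply] at y
  push_cast at u
  linarith

/-- **cutting** a tiger along a divisor which is singular on it -/
theorem cut (c : Can n G) {a ε ε' : ℝ} (a0 : 0 ≤ a) (e0 : 0 ≤ ε) (e1 : ε + a < ε') (e2 : ε' < 1)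
    (h0 : 0 ≤ Δ) (hs : Smp (ε • -G - Δ)) (d0 : 0 ≤ D) (ds : Smp (a • -G - D)) (dP : D P = 0)
    (hP : dsc (n + 1) (G + Δ) P = -1)
    (hk : ∀ Q', Cu (-G) P Q Q' → -1 < dsc n (adj n P (G + Δ)) Q') (cu : Cu (-G) P Q Q')
    (g : dsc n (adj n P (G + Δ) + res P D) Q' ≤ -1) :
    ∃ Δ' P', Lo n G Δ' ε' P' ∧ Cq (-G) P Q P' ∧ ¬ On n (-G) P' := by
  have hK := c.ff
  have hL := Bm.ff_κ hK P
  obtain ⟨m, rfl⟩ := Ba.ff_succ hL Q
  have cΘ : G + Δ ∈ Car K := add_mem (by simpa using neg_mem c.smp.car)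
    (by simpa using sub_mem (c.smp.smul e0).car hs.car)
  have cD : D ∈ Car K := by simpa using sub_mem (c.smp.smul a0).car ds.car
  have ad : ∀ t : ℝ, adj (m + 1) P (G + Δ + t • D) = adj (m + 1) P (G + Δ) + t • res P D :=
    fun t => by rw [(a4 _ K hK P _ cΘ _ (Submodule.smul_mem _ t cD)).1, res_smul hK P t cD]
  have vP : ∀ t : ℝ, dsc (m + 1 + 1) (G + Δ + t • D) P = -1 := fun t => by
    rw [dsc_add_smul, hP, dP, mul_zero, sub_zero]
  rw [dsc_add] at g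
  have p : 0 < res P D Q' := by linarith [hk Q' cu]
  obtain ⟨t, t0, lc, Q₁, q1, q2⟩ := lct_on (S := {Q' | Cu (-G) P Q Q'}) hL (a1 _ K hK P _ cΘ).1
    (res_car hK P D) (res_car hK P (-G)) (fun _ x _ y => x.up hK c.smp.car y) hk cu p
  have t1 : t ≤ 1 := by
    have := lc Q' cu
    rw [dsc_add_smul] at this
    nlinarith
  have sm : ∀ u : ℝ, 0 ≤ u → u ≤ 1 → Smp ((ε + a) • -G - (Δ + u • D)) := fun u x y => by
    have := (hs.add (ds.smul x)).add (c.smp.smul (mul_nonneg (sub_nonneg.2 y) a0))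
    rwa [show ε • -G - Δ + u • (a • -G - D) + ((1 - u) * a) • -G =
      (ε + a) • -G - (Δ + u • D) by module] at this
  have iv : ∀ u : ℝ, 0 ≤ u → u < t → ∀ R, R ≠ P → Cq (-G) P Q R →
      -1 < dsc (m + 1 + 1) (G + Δ + u • D) R := fun u x y R ne cq =>
    a5l (c := ε + a - 1) hK c.smp c.big (by
      rw [show (ε + a - 1) • -G - (G + Δ + u • D) = (ε + a) • -G - (Δ + u • D) + (2 : ℝ) • G -
        (2 : ℝ) • G by module, add_sub_cancel_right]
      exact (sm u x (y.le.trans t1)).nef) (fun R o => by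
      have := c.bdy R o
      rw [dsc_add_smul, dsc_add]
      linarith [h0 R, mul_nonneg x (d0 R), show (0 : BD K) R = 0 from rfl]) (vP u) (fun R z => by
      have i := lc R z
      have j := hk R z
      rw [dsc_add_smul] at i
      rw [ad, dsc_add_smul]
      rcases (res_nonneg hK P cD d0 dP R).eq_or_lt with k | k
      · rw [← k]; simpa using j
      · nlinarith) ne cq
  obtain ⟨R, ⟨ne, -⟩, -, r1, r2, r3⟩ := a2 _ K hK P Q₁ {G + Δ + t • D} (-G) 0 (toFinite _)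
    (singleton_subset_iff.2 (add_mem cΘ (Submodule.smul_mem _ t cD))) c.smp.car
  have r4 := r3 _ rfl
  rw [vP, ad, q2] at r4
  have cq : Cq (-G) P Q R := fun X x y z => q1 X x y (z.trans_le (r2 X x y).1)
  obtain ⟨Δ', P', x, y, z⟩ := lo_off (F := Δ + t • D) (R := R) c (add_nonneg e0 a0) e1 e2
    (add_nonneg h0 (smul_nonneg t0.le d0)) (sm t t0.le t1)
    (fun o => ne (On.eq_of_cle hK c.smp c.big o r1).symm) (by rw [← add_assoc]; linarith)
    fun R' k => by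
      rw [← add_assoc]
      by_cases e : R' = P
      · exact e ▸ (vP t).ge
      have i := fun u x y => iv u x y R' e (cq_up cq k)
      simp only [dsc_add_smul] at i ⊢
      refine ge_of_tendsto (x := 𝓝[<] t) (f := fun u => dsc (m + 1 + 1) (G + Δ) R' - u * D R')
        (tendsto_nhdsWithin_of_tendsto_nhds (Continuous.tendsto (by fun_prop) t)) ?_
      filter_upwards [Ioo_mem_nhdsLT t0] with u hu using (i u hu.1.le hu.2).le
  exact ⟨Δ', P', x, cq_up cq y, z⟩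

end Vale.Agent.P287D.Ti
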